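import Vale.Agent.P299.H996.D6.Act

/-!
# Deck transformations and descent of invariant sections
-/

open scoped Manifold ContDiff ComplexOrder Topology
open Complex Vale.Agent.P272.K Vale.Agent.P299.D Vale.Agent.P299.H956 Vale.Agent.P278.H837

noncomputable section

namespace Vale.Agent.P299.H996

variable {n k m : ℕ} {M X : Type*} [TopologicalSpace M] [TopologicalSpace X]
  [ChartedSpace (Cm n) M] [ChartedSpace (Cm n) X]
  [IsManifold 𝓘(ℂ, Cm n) ω M] [IsManifold 𝓘(ℂ, Cm n) ω X] {π : M → X}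

theorem deck_hol (loc : IsLocalDiffeomorph 𝓘(ℂ, Cm n) 𝓘(ℂ, Cm n) ω π) (γ : Deck π) :
    ContMDiff 𝓘(ℂ, Cm n) 𝓘(ℂ, Cm n) ω ((γ : M ≃ₜ M) : M → M) := by
  intro y
  obtain ⟨g, hgy, hg, hgf, -⟩ := exists_localInverse loc ((γ : M ≃ₜ M) y)
  have hπ : ∀ z, π ((γ : M ≃ₜ M) z) = π z := γ.2
  rw [hπ] at hg
  have h1 : ContMDiffAt 𝓘(ℂ, Cm n) 𝓘(ℂ, Cm n) ω (fun z => g (π z)) y :=
    hg.comp y loc.contMDiff.contMDiffAt
  refine h1.congr_of_eventuallyEq ?_
  have h2 : Filter.Tendsto (γ : M ≃ₜ M) (𝓝 y) (𝓝 ((γ : M ≃ₜ M) y)) :=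
    (γ : M ≃ₜ M).continuous.continuousAt
  filter_upwards [h2.eventually hgf] with z hz
  rw [← hz, hπ]

theorem deck_imm (loc : IsLocalDiffeomorph 𝓘(ℂ, Cm n) 𝓘(ℂ, Cm n) ω π) (γ : Deck π) :
    Immersive n n ((γ : M ≃ₜ M) : M → M) := by
  refine immersive_of_leftInverse (g := ((γ⁻¹ : Deck π) : M ≃ₜ M)) (deck_hol loc γ)
    (deck_hol loc γ⁻¹) fun y => ?_
  show (((γ⁻¹ * γ : Deck π) : M ≃ₜ M) : M → M) y = y
  rw [inv_mul_cancel]; rfl

/-- **Descent** of a section invariant under the deck group. -/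
theorem exists_descend (loc : IsLocalDiffeomorph 𝓘(ℂ, Cm n) 𝓘(ℂ, Cm n) ω π)
    (surj : Function.Surjective π)
    (gal : ∀ y y' : M, π y = π y' → ∃ γ : Deck π, (γ : M ≃ₜ M) y = y')
    {U : Ten n k M} (hU : IsTen k m U)
    (hinv : ∀ (γ : Deck π) (e e' : Chart n M) (y : M), At e y → At e' ((γ : M ≃ₜ M) y) →
      U e (e y) = act m (jacF (γ : M ≃ₜ M) e e' y) (U e' (e' ((γ : M ≃ₜ M) y)))) :
    ∃ s : Ten n k X, IsTen k m s ∧ ∀ (e : Chart n M) (e' : Chart n X) (y : M), At e y →
      At e' (π y) → U e (e y) = act m (jacF π e e' y) (s e' (e' (π y))) := by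
  have hπ : ContMDiff 𝓘(ℂ, Cm n) 𝓘(ℂ, Cm n) ω π := loc.contMDiff
  have hi : Immersive n n π := immersive_of_localDiffeo loc
  have hdet : ∀ (e : Chart n M) (e' : Chart n X) y, At e y → At e' (π y) →
      (jacF π e e' y)⁻¹ * jacF π e e' y = 1 := fun e e' y h h' =>
    Matrix.nonsing_inv_mul _ (isUnit_iff_ne_zero.2 (det_inj (hi e e' y h h')))
  have hdet' : ∀ (e : Chart n M) (e' : Chart n X) y, At e y → At e' (π y) →
      jacF π e e' y * (jacF π e e' y)⁻¹ = 1 := fun e e' y h h' =>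
    Matrix.mul_nonsing_inv _ (isUnit_iff_ne_zero.2 (det_inj (hi e e' y h h')))
  let s : Ten n k X := fun e' z =>
    act m (jacF π (chartAt (Cm n) (Function.surjInv surj (e'.symm z))) e'
        (Function.surjInv surj (e'.symm z)))⁻¹
      (U (chartAt (Cm n) (Function.surjInv surj (e'.symm z)))
        (chartAt (Cm n) (Function.surjInv surj (e'.symm z)) (Function.surjInv surj (e'.symm z))))
  -- independence
  have hs : ∀ (e' : Chart n X) (c : Chart n M) (y : M), At c y → At e' (π y) →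
      s e' (e' (π y)) = act m (jacF π c e' y)⁻¹ (U c (c y)) := by
    intro e' c y h h'
    show act m _ _ = _
    rw [h'.left_inv]
    set y' := Function.surjInv surj (π y)
    have hy' : π y' = π y := Function.surjInv_eq surj (π y)
    have hc := at_chartAt (n := n) y'
    obtain ⟨γ, hγ⟩ := gal y y' hy'.symm
    have hc' : At (chartAt (Cm n) y') ((γ : M ≃ₜ M) y) := by rw [hγ]; exact hc
    have h1 := hinv γ c (chartAt (Cm n) y') y h hc'
    have hγπ : (fun z => π ((γ : M ≃ₜ M) z)) = π := funext γ.2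
    have h2 : jacF π c e' y =
        jacF π (chartAt (Cm n) y') e' ((γ : M ≃ₜ M) y) *
          jacF (γ : M ≃ₜ M) c (chartAt (Cm n) y') y := by
      conv_lhs => rw [← hγπ]
      exact jacF_comp (f := (γ : M ≃ₜ M)) (g := π) (deck_hol loc γ).contMDiffAt
        hπ.contMDiffAt h hc' (by rw [γ.2]; exact h')
    rw [hγ] at h1 h2
    rw [h1]
    -- both sides are determined
    have h3 : act m (jacF π c e' y) (act m (jacF π (chartAt (Cm n) y') e' y')⁻¹
        (U (chartAt (Cm n) y') (chartAt (Cm n) y' y'))) =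
        act m (jacF (γ : M ≃ₜ M) c (chartAt (Cm n) y') y)
          (U (chartAt (Cm n) y') (chartAt (Cm n) y' y')) := by
      rw [h2, act_mul, act_cancel (hdet _ _ _ hc (by rw [hy']; exact h'))]
    rw [← h3, act_cancel (hdet' _ _ _ h h')]
  refine ⟨s, ?_, ?_⟩
  · rw [isTen_iff]
    constructor
    · intro e' x hx I
      obtain ⟨y, rfl⟩ := surj x
      apply ContDiffAt.analyticAt
      obtain ⟨g, hgy, hg, hgf, hfg⟩ := exists_localInverse loc y
      have hc := at_chartAt (n := n) y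
      set c := chartAt (Cm n) y
      have hc2 : At c (g (π y)) := by rw [hgy]; exact hc
      have hτ := rep_hol hg hx hc2
      have hcont : Filter.Tendsto e'.symm (𝓝 (e' (π y))) (𝓝 (π y)) := by
        have := e'.continuousAt_symm hx.mem_target
        rwa [ContinuousAt, hx.left_inv] at this
      have hcy : c (g (e'.symm (e' (π y)))) = c y := by rw [hx.left_inv, hgy]
      -- Jacobian of `g`
      have hgd : ∀ x', At e' x' → At c (g x') → ContMDiffAt 𝓘(ℂ, Cm n) 𝓘(ℂ, Cm n) ω g x' →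
          (∀ᶠ x in 𝓝 x', π (g x) = x) → jacF π c e' (g x') * jacF g e' c x' = 1 := by
        intro x' h1 h2 h3 h4
        have h5 : jacF (fun x => π (g x)) e' e' x' = 1 := by
          rw [jacF_congr (f₁ := fun x => x) h1 h4, jacF_id, jacM_self h1]
        rw [← h5]
        exact (jacF_comp (g := π) (e'' := e') h3 hπ.contMDiffAt h1 h2
          (by rw [h4.self_of_nhds]; exact h1)).symm
      have h0 : (jmR (fun z => c (g (e'.symm z))) (e' (π y))).det ≠ 0 := by
        have h1 := hgd (π y) hx hc2 hg hfg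
        intro h2
        have h3 := congrArg Matrix.det h1
        rw [Matrix.det_mul, jacF_eq g, h2, mul_zero, Matrix.det_one] at h3
        exact zero_ne_one h3
      have h1 : ContDiffAt ℂ ω (fun z => act m (jmR (fun z => c (g (e'.symm z))) z)
          (U c (c (g (e'.symm z)))) I) (e' (π y)) := by
        refine holo_act (fun p i => jmR_holo hτ p i) h0 ?_ I
        intro K
        refine ContDiffAt.comp (e' (π y)) (g := fun z => U c z K)
          (f := fun z => c (g (e'.symm z))) ?_ hτ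
        rw [hcy]
        exact (hU.holo c y hc K).contDiffAt
      refine h1.congr_of_eventuallyEq ?_
      have hg2 : ∀ᶠ x in 𝓝 (π y), ContMDiffAt 𝓘(ℂ, Cm n) 𝓘(ℂ, Cm n) ω g x :=
        (contMDiffAt_iff_contMDiffAt_nhds (by simp)).1 hg
      filter_upwards [nhds_at_map hg.continuousAt hx hc2, hcont.eventually hg2,
        hcont.eventually hfg.eventually_nhds] with z hz hz2 hz3
      have h4 : π (g (e'.symm z)) = e'.symm z := hz3.self_of_nhds
      have h5 := hs e' c (g (e'.symm z)) hz.2.2 (by rw [h4]; exact hz.2.1)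
      rw [h4, e'.right_inv hz.1] at h5
      rw [h5]
      have h6 := hgd _ hz.2.1 hz.2.2 hz2 hz3
      have h7 : (jacF π c e' (g (e'.symm z)))⁻¹ = jacF g e' c (e'.symm z) :=
        Matrix.inv_eq_right_inv h6
      rw [h7, jacF_target hz.2.1.1 hz.1]
    · intro e₁ e₂ x h₁ h₂
      obtain ⟨y, rfl⟩ := surj x
      have hc := at_chartAt (n := n) y
      rw [hs e₁ _ y hc h₁, hs e₂ _ y hc h₂, ← act_mul]
      congr 1
      rw [jacF_right hπ.contMDiffAt hc h₁ h₂, Matrix.mul_inv_rev, Matrix.mul_assoc,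
        Matrix.nonsing_inv_mul _ (jacM_isUnit h₁ h₂), Matrix.mul_one]
  · intro e e' y h h'
    rw [hs e' e y h h', act_cancel (hdet _ _ _ h h')]

end Vale.Agent.P299.H996
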