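import Vale.Agent.P299.H996.D6.Prod
import Mathlib.GroupTheory.Schreier

/-!
# D6: the tensor statement on `X` from the structure of the universal cover
-/

open scoped Manifold ContDiff ComplexOrder Topology
open Complex Vale.Agent.P272.K Vale.Agent.P299.D Vale.Agent.P299.H956 Vale.Agent.P278.H837

noncomputable section

namespace Vale.Agent.P299.H996

/-- the section `∂_1 ∧ … ∧ ∂_d` of `-K` on `ℂ^d` -/
def oneTen (d : ℕ) : Ten d 0 (Cm d) := fun _ _ _ => 1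

theorem isTen_oneTen (d : ℕ) : IsTen 0 1 (oneTen d) := by
  rw [isTen_iff]
  constructor
  · intro e x _ I
    exact analyticAt_const
  · intro e e' x h h'
    have h1 : e = e' := by
      rw [chartedSpaceSelf_atlas.1 h.1, chartedSpaceSelf_atlas.1 h'.1]
    subst h1
    rw [jacM_self h, act_one]

section split

variable {n : ℕ} {X : Type} [TopologicalSpace X] [ChartedSpace (Cm n) X] {w : FormM n X}
  (S : Split n X w)

/-- the section of `-K` on `Y 0 = ℂ^d` -/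
def s0 : Ten (S.d 0) 0 (S.Y 0) := tenPB 1 S.dev (oneTen (S.d 0))

theorem dev_imm : Immersive (S.d 0) (S.d 0) S.dev :=
  immersive_of_leftInverse S.dev_hol S.dev_symm_hol fun y => S.dev.symm_apply_apply y

theorem isTen_s0 : IsTen 0 1 (s0 S) := isTen_tenPB S.dev_hol (dev_imm S) (isTen_oneTen _)

theorem s0_ne (e : Chart (S.d 0) (S.Y 0)) (y : S.Y 0) (h : At e y) : s0 S e (e y) (e0 _) ≠ 0 := by
  have hc := at_chartAt (n := S.d 0) (S.dev y)
  intro h0
  unfold s0 at h0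
  rw [tenPB_eq S.dev_hol (isTen_oneTen _) h hc] at h0
  have h1 := act_zero_slots (jacF S.dev e (chartAt (Cm (S.d 0)) (S.dev y)) y)
    (det_inj (dev_imm S _ _ _ h hc))
    (oneTen (S.d 0) (chartAt (Cm (S.d 0)) (S.dev y)) (chartAt (Cm (S.d 0)) (S.dev y) (S.dev y))) 1
  rw [h0, mul_zero] at h1
  exact zero_ne_one h1

theorem s0_inv (γ : Deck S.π) (a : Cm (S.d 0)) (ha : ∀ y, S.dev (S.ρ 0 γ y) = S.dev y + a) :
    TenInv 1 (S.ρ 0 γ) (s0 S) := by
  rw [tenInv_iff (rho_det S 0 γ)]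
  intro e e' y h h'
  have hc := at_chartAt (n := S.d 0) (S.dev y)
  have hc' := at_chartAt (n := S.d 0) (S.dev (S.ρ 0 γ y))
  unfold s0
  rw [tenPB_eq S.dev_hol (isTen_oneTen _) h hc, tenPB_eq S.dev_hol (isTen_oneTen _) h' hc',
    ← act_mul, ← jacF_comp (f := S.ρ 0 γ) (g := S.dev) (S.ρ_hol 0 γ).contMDiffAt
      S.dev_hol.contMDiffAt h h' hc']
  have h1 : jacF (fun y => S.dev (S.ρ 0 γ y)) e (chartAt (Cm (S.d 0)) (S.dev (S.ρ 0 γ y))) y =
      jacF S.dev e (chartAt (Cm (S.d 0)) (S.dev y)) y := by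
    ext p i
    show dz i (fun z => (S.dev (S.ρ 0 γ (e.symm z))) p) (e y) =
      dz i (fun z => (S.dev (e.symm z)) p) (e y)
    have h2 : (fun z => (S.dev (S.ρ 0 γ (e.symm z))) p) =
        fun z => (S.dev (e.symm z)) p + a p := by
      funext z
      rw [ha]; rfl
    rw [h2]
    unfold dz
    rw [fderiv_add_const]
  rw [h1]
  rfl

end split

/-- **D6.** -/
theorem d6 : D6Statement := by
  intro D1 D2 D3 D4a D4c D5 Idx n X _ _ _ _ _ _ w hw hr
  obtain ⟨S⟩ := D1 n X w hw hr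
  obtain ⟨hc1, hc2⟩ := D2 n X w hw hr S
  obtain ⟨G3, hG3, hG3fg, hG3c, hG3t⟩ := D3 n X w hw hr S hc1 hc2
  obtain ⟨s1, hs1, hs1ne, G4, hG4, hG4i⟩ := D4a n X w hw hr S hc1
  have hD4c := D4c n X w hw hr S hc2
  let G : Subgroup (Deck S.π) := G3 ⊓ G4
  have hG : G.FiniteIndex := inferInstance
  let _ : CommGroup G := { (inferInstance : Group G) with
    mul_comm := fun a b => Subtype.ext (hG3c _ a.2.1 _ b.2.1) }
  have hGfg : Group.FG G := by
    have h1 : Group.FG G3 := (Group.fg_iff_subgroup_fg G3).2 hG3fg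
    have h2 : (G.subgroupOf G3).FiniteIndex := inferInstance
    have h3 : Group.FG (G.subgroupOf G3) := inferInstance
    exact Group.fg_of_surjective (f := (Subgroup.subgroupOfEquivOfLe (inf_le_left : G ≤ G3)).toMonoidHom)
      (Subgroup.subgroupOfEquivOfLe (inf_le_left : G ≤ G3)).surjective
  have hcs : CompactSpace (S.Y 2) := hc2
  let ρ : G →* Equiv.Perm (S.Y 2) := (S.ρ 2).comp G.subtype
  obtain ⟨r, T, G', hG', hT⟩ := D5 (S.d 2) (S.Y 2) (S.wY 2) (S.kahY 2) G ρ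
    (fun g => S.ρ_hol 2 g) (fun g e z h => S.ρ_iso 2 g e z h)
  obtain ⟨p, hp⟩ := Idx (S.d 2) (S.Y 2) (S.wY 2) (S.kahY 2) (S.ricY 2) hD4c r T
  let G'' : Subgroup (Deck S.π) := G'.map G.subtype
  have hG'' : G''.FiniteIndex := ⟨by
    rw [Subgroup.index_map_subtype]
    exact mul_ne_zero hG'.index_ne_zero hG.index_ne_zero⟩
  obtain ⟨N, hN, hnorm⟩ := exists_norm (π := S.π) S.loc G'' hG''
  refine ⟨N * p, fun m₀ => ?_⟩
  obtain ⟨m, hm, s2, hs2, hs2nz, hs2inv⟩ := hp m₀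
  have hs0 := isTen_s0 S
  have hu := isTen_uM S hs0 hs1 hs2
  have hunz : TenNZ (uM S m (s0 S) s1 s2) :=
    tenNZ_uM S hs0 hs1 hs2 (fun e y h => s0_ne S e y h) (fun e y h => hs1ne e y _ h) hs2nz
  have huinv : ∀ γ ∈ G'', InvDeck m (uM S m (s0 S) s1 s2) γ := by
    rintro _ ⟨g, hg, rfl⟩
    have hg3 : (g : Deck S.π) ∈ G3 := g.2.1
    have hg4 : (g : Deck S.π) ∈ G4 := g.2.2
    obtain ⟨a, ha⟩ := hG3t _ hg3
    refine invDeck_uM S hs0 hs1 hs2 _ (s0_inv S _ a ha) (hG4i _ hg4) ?_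
    obtain ⟨t, ht⟩ := hT g hg
    have h1 : (T.a t : S.Y 2 → S.Y 2) = S.ρ 2 (g : Deck S.π) := funext fun z => (ht z).symm
    have := hs2inv t
    rw [h1] at this
    exact this
  obtain ⟨U, hU, hUnz, hUinv⟩ := hnorm p m _ hu hunz huinv
  obtain ⟨s, hs, hsU⟩ := exists_descend S.loc S.surj (fun y y' h => (S.gal y y').1 h) hU hUinv
  refine ⟨m * N, ?_, s, hs, ?_⟩
  · calc m₀ ≤ m := hm
      _ = m * 1 := (mul_one m).symm
      _ ≤ m * N := Nat.mul_le_mul_left m hN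
  · obtain ⟨e, y, I, h, hne⟩ := hUnz
    have hc := at_chartAt (n := n) (S.π y)
    rw [tenNZ_iff hs]
    refine ⟨S.π y, (mem_nzSet_iff hs hc).2 fun h0 => hne ?_⟩
    rw [hsU e _ y h hc, h0, act_zero]
    rfl

end Vale.Agent.P299.H996
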