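import Vale.Agent.P299.H996.D6.LinAlg
import Vale.Agent.P299.H956.D1.Imm

/-!
# The action of Jacobian matrices on values of sections of `(Ω¹)^{⊗p} ⊗ (-mK)`
-/

open scoped Manifold ContDiff ComplexOrder Topology
open Complex Vale.Agent.P272.K Vale.Agent.P299.D Vale.Agent.P299.H956

noncomputable section

namespace Vale.Agent.P299.H996

section alg

variable {ι κ : Type} [Fintype ι] [DecidableEq ι] [Fintype κ] [DecidableEq κ] {n : ℕ}

/-- the pull back of a value of a section of `(Ω¹)^{⊗ι} ⊗ (-mK)` by a matrix -/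
def act (m : ℕ) (J : Matrix (Fin n) (Fin n) ℂ) (t : (ι → Fin n) → ℂ) : (ι → Fin n) → ℂ :=
  (J.det ^ m)⁻¹ • tP J t

theorem act_mul (m : ℕ) (A B : Matrix (Fin n) (Fin n) ℂ) (t : (ι → Fin n) → ℂ) :
    act m (A * B) t = act m B (act m A t) := by
  unfold act
  rw [tP_mul, tP_smul, Matrix.det_mul, mul_pow, mul_inv, smul_smul, mul_comm]

theorem act_one (m : ℕ) (t : (ι → Fin n) → ℂ) : act m (1 : Matrix (Fin n) (Fin n) ℂ) t = t := by
  unfold act
  rw [tP_one]; simp

theorem act_cancel {m : ℕ} {J J' : Matrix (Fin n) (Fin n) ℂ} (h : J' * J = 1)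
    (t : (ι → Fin n) → ℂ) : act m J (act m J' t) = t := by
  rw [← act_mul, h, act_one]

theorem act_zero (m : ℕ) (J : Matrix (Fin n) (Fin n) ℂ) :
    act m J (0 : (ι → Fin n) → ℂ) = 0 := by
  unfold act; rw [tP_zero, smul_zero]

theorem act_reSlot (m : ℕ) (e : κ ≃ ι) (J : Matrix (Fin n) (Fin n) ℂ) (t : (ι → Fin n) → ℂ) :
    act m J (reSlot e t) = reSlot e (act m J t) := by
  unfold act
  rw [tP_reSlot]
  rfl

theorem act_symProd {Q : Type} [Fintype Q] [DecidableEq Q] (m : ℕ) (J : Matrix (Fin n) (Fin n) ℂ)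
    (u : Q → (ι → Fin n) → ℂ) :
    act (m * Fintype.card Q) J (symProd u) = symProd (fun q => act m J (u q)) := by
  unfold act
  rw [tP_symProd, symProd_smul, pow_mul, inv_pow]

theorem act_eq_iff {m : ℕ} {J : Matrix (Fin n) (Fin n) ℂ} (hJ : J.det ≠ 0)
    {a b : (ι → Fin n) → ℂ} : a = act m J b ↔ ∀ I, J.det ^ m * a I = tP J b I := by
  constructor
  · rintro rfl I
    unfold act
    rw [Pi.smul_apply, smul_eq_mul, mul_inv_cancel_left₀ (pow_ne_zero m hJ)]
  · intro h
    ext I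
    unfold act
    rw [Pi.smul_apply, smul_eq_mul, ← h I, inv_mul_cancel_left₀ (pow_ne_zero m hJ)]

theorem act_ne_zero {m : ℕ} {J : Matrix (Fin n) (Fin n) ℂ} (hJ : J.det ≠ 0)
    {t : (ι → Fin n) → ℂ} (ht : t ≠ 0) : act m J t ≠ 0 := by
  intro h
  apply ht
  have h1 : J * J⁻¹ = 1 := Matrix.mul_nonsing_inv J (isUnit_iff_ne_zero.2 hJ)
  rw [← act_cancel (m := m) h1 t, h, act_zero]

end alg

section holo

variable {ι : Type} [Fintype ι] [DecidableEq ι] {n d k : ℕ}

theorem holo_tP {J : Cm k → Matrix (Fin n) (Fin d) ℂ} {t : Cm k → (ι → Fin n) → ℂ} {z : Cm k}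
    (hJ : ∀ p i, ContDiffAt ℂ ω (fun y => J y p i) z)
    (ht : ∀ K, ContDiffAt ℂ ω (fun y => t y K) z) (I : ι → Fin d) :
    ContDiffAt ℂ ω (fun y => tP (J y) (t y) I) z := by
  simp only [tP_apply]
  exact ContDiffAt.sum fun K _ => (contDiffAt_prod fun a _ => hJ _ _).mul (ht K)

theorem holo_det {J : Cm k → Matrix (Fin n) (Fin n) ℂ} {z : Cm k}
    (hJ : ∀ p i, ContDiffAt ℂ ω (fun y => J y p i) z) :
    ContDiffAt ℂ ω (fun y => (J y).det) z := by
  simp only [Matrix.det_apply']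
  exact ContDiffAt.sum fun σ _ => contDiffAt_const.mul (contDiffAt_prod fun i _ => hJ _ _)

theorem holo_act {m : ℕ} {J : Cm k → Matrix (Fin n) (Fin n) ℂ} {t : Cm k → (ι → Fin n) → ℂ}
    {z : Cm k} (hJ : ∀ p i, ContDiffAt ℂ ω (fun y => J y p i) z) (h0 : (J z).det ≠ 0)
    (ht : ∀ K, ContDiffAt ℂ ω (fun y => t y K) z) (I : ι → Fin n) :
    ContDiffAt ℂ ω (fun y => act m (J y) (t y) I) z := by
  have h1 : ContDiffAt ℂ ω (fun y => ((J y).det ^ m)⁻¹) z :=
    ((holo_det hJ).pow m).inv (pow_ne_zero m h0)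
  exact h1.mul (holo_tP hJ ht I)

end holo

section mfd

variable {n p m : ℕ} {N X Z : Type*} [TopologicalSpace N] [TopologicalSpace X] [TopologicalSpace Z]
  [ChartedSpace (Cm n) N] [ChartedSpace (Cm n) X] [ChartedSpace (Cm n) Z]
  [IsManifold 𝓘(ℂ, Cm n) ω N] [IsManifold 𝓘(ℂ, Cm n) ω X] [IsManifold 𝓘(ℂ, Cm n) ω Z]

/-- the change of charts rule for `Ten`s, in terms of `act` -/
theorem IsTen.change' {s : Ten n p X} (hs : IsTen p m s) {e e' : Chart n X} {x : X} (h : At e x)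
    (h' : At e' x) : s e (e x) = act m (jacM e e' x) (s e' (e' x)) := by
  rw [act_eq_iff (jacM_det_ne_zero h h')]
  intro I
  rw [tP_eq_tenPull]
  exact hs.change e e' x h h' I

theorem isTen_iff {s : Ten n p X} : IsTen p m s ↔
    (∀ (e : Chart n X) x, At e x → ∀ I, AnalyticAt ℂ (fun z => s e z I) (e x)) ∧
    ∀ (e e' : Chart n X) x, At e x → At e' x →
      s e (e x) = act m (jacM e e' x) (s e' (e' x)) := by
  constructor
  · intro h
    exact ⟨h.holo, fun e e' x he he' => IsTen.change' h he he'⟩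
  · rintro ⟨h1, h2⟩
    refine ⟨h1, fun e e' x he he' I => ?_⟩
    rw [← tP_eq_tenPull]
    exact (act_eq_iff (jacM_det_ne_zero he he')).1 (h2 e e' x he he') I

theorem tenInv_iff {g : X → X} {s : Ten n p X}
    (hd : ∀ (e e' : Chart n X) x, At e x → At e' (g x) → (jacF g e e' x).det ≠ 0) :
    TenInv m g s ↔ ∀ (e e' : Chart n X) x, At e x → At e' (g x) →
      s e (e x) = act m (jacF g e e' x) (s e' (e' (g x))) := by
  constructor
  · intro h e e' x he he'
    rw [act_eq_iff (hd e e' x he he')]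
    intro I
    rw [tP_eq_tenPull]
    exact h e e' x he he' I
  · intro h e e' x he he' I
    rw [← tP_eq_tenPull]
    exact (act_eq_iff (hd e e' x he he')).1 (h e e' x he he') I

/-- the pull back of a section of `(Ω¹)^{⊗p} ⊗ (-mK)` -/
def tenPB (m : ℕ) (f : N → X) (s : Ten n p X) : Ten n p N := fun e z =>
  act m (jacF f e (chartAt (Cm n) (f (e.symm z))) (e.symm z))
    (s (chartAt (Cm n) (f (e.symm z))) (chartAt (Cm n) (f (e.symm z)) (f (e.symm z))))

theorem tenPB_eq {f : N → X} (hf : ContMDiff 𝓘(ℂ, Cm n) 𝓘(ℂ, Cm n) ω f) {s : Ten n p X}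
    (hs : IsTen p m s) {e : Chart n N} {e' : Chart n X} {y : N} (h : At e y) (h' : At e' (f y)) :
    tenPB m f s e (e y) = act m (jacF f e e' y) (s e' (e' (f y))) := by
  unfold tenPB
  rw [h.left_inv]
  have hc := at_chartAt (n := n) (f y)
  rw [IsTen.change' hs hc h', ← act_mul, ← jacF_right hf.contMDiffAt h hc h']

theorem tenPB_comp {f : N → X} {g : X → Z} (hf : ContMDiff 𝓘(ℂ, Cm n) 𝓘(ℂ, Cm n) ω f)
    (hg : ContMDiff 𝓘(ℂ, Cm n) 𝓘(ℂ, Cm n) ω g) {s : Ten n p Z} (hs : IsTen p m s)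
    {e : Chart n N} {y : N} (h : At e y) :
    act m (jacF f e (chartAt (Cm n) (f y)) y)
      (tenPB m g s (chartAt (Cm n) (f y)) (chartAt (Cm n) (f y) (f y))) =
      tenPB m (fun y => g (f y)) s e (e y) := by
  have hc := at_chartAt (n := n) (f y)
  have hc' := at_chartAt (n := n) (g (f y))
  rw [tenPB_eq hg hs hc hc', tenPB_eq (f := fun y => g (f y)) (hg.comp hf) hs h hc', ← act_mul,
    ← jacF_comp hf.contMDiffAt hg.contMDiffAt h hc hc']

/-- the pull back of a section by a local biholomorphism is a section -/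
theorem isTen_tenPB {f : N → X} (hf : ContMDiff 𝓘(ℂ, Cm n) 𝓘(ℂ, Cm n) ω f)
    (hi : Immersive n n f) {s : Ten n p X} (hs : IsTen p m s) : IsTen p m (tenPB m f s : Ten n p N) := by
  rw [isTen_iff]
  constructor
  · intro e y h I
    apply ContDiffAt.analyticAt
    have hc := at_chartAt (n := n) (f y)
    set c := chartAt (Cm n) (f y)
    have hf' : ContMDiffAt 𝓘(ℂ, Cm n) 𝓘(ℂ, Cm n) ω f y := hf.contMDiffAt
    have hτ := rep_hol hf' h hc
    have hy : c (f (e.symm (e y))) = c (f y) := by rw [h.left_inv]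
    have h1 : ContDiffAt ℂ ω (fun z => act m (jmR (fun z => c (f (e.symm z))) z)
        (s c (c (f (e.symm z)))) I) (e y) := by
      refine holo_act (fun p i => jmR_holo hτ p i) ?_ ?_ I
      · exact det_inj (hi e c y h hc)
      · intro K
        refine ContDiffAt.comp (e y) (g := fun z => s c z K) (f := fun z => c (f (e.symm z))) ?_ hτ
        rw [hy]
        exact (hs.holo c (f y) hc K).contDiffAt
    refine h1.congr_of_eventuallyEq ?_
    filter_upwards [nhds_at_map hf'.continuousAt h hc] with z hz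
    have h2 := tenPB_eq hf hs hz.2.1 hz.2.2
    rw [e.right_inv hz.1] at h2
    rw [h2, jacF_target hz.2.1.1 hz.1]
  · intro e e' y h h'
    have hc := at_chartAt (n := n) (f y)
    rw [tenPB_eq hf hs h hc, tenPB_eq hf hs h' hc, ← act_mul, ← jacF_left hf.contMDiffAt h h' hc]

end mfd

end Vale.Agent.P299.H996
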