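import Vale.Agent.P299.H723.D.Stmt
import Mathlib.LinearAlgebra.Matrix.Block
import Mathlib.Algebra.BigOperators.Fin
import Mathlib.Algebra.MvPolynomial.Funext

/-!
# Linear algebra for D6: pull backs of covariant tensors, stacked Jacobians, symmetrised products
-/

open Vale.Agent.P299.D

noncomputable section

namespace Vale.Agent.P299.H996

section tensor

variable {ι κ : Type} [Fintype ι] [DecidableEq ι] [Fintype κ] [DecidableEq κ] {n d m : ℕ}

/-- pull back of covariant tensors with slots indexed by `ι` -/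
def tP (J : Matrix (Fin n) (Fin d) ℂ) (s : (ι → Fin n) → ℂ) : (ι → Fin d) → ℂ :=
  fun I => ∑ K : ι → Fin n, (∏ a, J (K a) (I a)) * s K

theorem tP_apply (J : Matrix (Fin n) (Fin d) ℂ) (s : (ι → Fin n) → ℂ)
    (I : ι → Fin d) : tP J s I = ∑ K : ι → Fin n, (∏ a, J (K a) (I a)) * s K := rfl

theorem tP_eq_tenPull {p : ℕ} (J : Matrix (Fin n) (Fin d) ℂ) (s : (Fin p → Fin n) → ℂ) :
    tP J s = tenPull J s := by
  ext I
  rw [tP_apply]
  rfl

theorem tP_mul (A : Matrix (Fin n) (Fin d) ℂ) (B : Matrix (Fin d) (Fin m) ℂ)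
    (s : (ι → Fin n) → ℂ) : tP (A * B) s = tP B (tP A s) := by
  ext I
  simp only [tP_apply, Matrix.mul_apply]
  simp_rw [Finset.prod_univ_sum, Fintype.piFinset_univ, Finset.mul_sum, Finset.sum_mul]
  rw [Finset.sum_comm]
  refine Finset.sum_congr rfl fun L _ => Finset.sum_congr rfl fun K _ => ?_
  rw [Finset.prod_mul_distrib]
  ring

theorem tP_one (s : (ι → Fin n) → ℂ) : tP (1 : Matrix (Fin n) (Fin n) ℂ) s = s := by
  ext I
  rw [tP_apply, Finset.sum_eq_single I]
  · simp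
  · intro K _ hK
    obtain ⟨a, ha⟩ := Function.ne_iff.1 hK
    rw [Finset.prod_eq_zero (Finset.mem_univ a) (by rw [Matrix.one_apply_ne ha]), zero_mul]
  · simp

theorem tP_smul (J : Matrix (Fin n) (Fin d) ℂ) (c : ℂ) (s : (ι → Fin n) → ℂ) :
    tP J (c • s) = c • tP J s := by
  ext I
  rw [Pi.smul_apply]
  simp only [tP_apply, Pi.smul_apply, smul_eq_mul, Finset.mul_sum]
  exact Finset.sum_congr rfl fun K _ => by ring

theorem tP_zero (J : Matrix (Fin n) (Fin d) ℂ) : tP J (0 : (ι → Fin n) → ℂ) = 0 := by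
  ext I
  simp [tP_apply]

theorem tP_inv_cancel {J J' : Matrix (Fin n) (Fin n) ℂ} (h : J' * J = 1)
    (s : (ι → Fin n) → ℂ) : tP J (tP J' s) = s := by
  rw [← tP_mul, h, tP_one]

/-- reindexing the slots -/
def reSlot (e : κ ≃ ι) (s : (ι → Fin n) → ℂ) : (κ → Fin n) → ℂ := fun K => s (K ∘ e.symm)

theorem tP_reSlot (e : κ ≃ ι) (J : Matrix (Fin n) (Fin d) ℂ) (s : (ι → Fin n) → ℂ) :
    tP J (reSlot e s) = reSlot e (tP J s) := by
  ext I
  simp only [tP_apply, reSlot]
  rw [← Equiv.sum_comp (Equiv.arrowCongr e.symm (Equiv.refl (Fin n)))]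
  refine Finset.sum_congr rfl fun K _ => ?_
  have h1 : (e.symm.arrowCongr (Equiv.refl (Fin n))) K ∘ e.symm = K := by
    ext1 a; simp
  rw [h1, ← Equiv.prod_comp e.symm]
  simp

/-- the symmetrised product of the tensors `u q`, `q : Q` -/
def symProd {Q : Type} [Fintype Q] [DecidableEq Q] (u : Q → (ι → Fin n) → ℂ) :
    (Q × ι → Fin n) → ℂ :=
  fun I => ∑ σ : Equiv.Perm Q, ∏ q, u (σ q) (fun a => I (q, a))

omit [Fintype ι] [DecidableEq ι] in
theorem symProd_apply {Q : Type} [Fintype Q] [DecidableEq Q] (u : Q → (ι → Fin n) → ℂ)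
    (I : Q × ι → Fin n) :
    symProd u I = ∑ σ : Equiv.Perm Q, ∏ q, u (σ q) (fun a => I (q, a)) := rfl

theorem tP_symProd {Q : Type} [Fintype Q] [DecidableEq Q] (J : Matrix (Fin n) (Fin d) ℂ)
    (u : Q → (ι → Fin n) → ℂ) :
    tP J (symProd u) = symProd (fun q => tP J (u q)) := by
  ext I
  simp only [symProd_apply, tP_apply]
  simp_rw [Finset.mul_sum]
  rw [Finset.sum_comm]
  refine Finset.sum_congr rfl fun σ _ => ?_
  rw [Finset.prod_univ_sum, Fintype.piFinset_univ,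
    ← Equiv.sum_comp (Equiv.curry Q ι (Fin n)).symm]
  refine Finset.sum_congr rfl fun K _ => ?_
  rw [Finset.prod_mul_distrib, Fintype.prod_prod_type]
  rfl

theorem symProd_smul {Q : Type} [Fintype Q] [DecidableEq Q] (c : ℂ) (u : Q → (ι → Fin n) → ℂ) :
    symProd (fun q => c • u q) = c ^ Fintype.card Q • symProd u := by
  ext I
  rw [Pi.smul_apply]
  simp only [symProd_apply, Pi.smul_apply, smul_eq_mul, Finset.mul_sum]
  refine Finset.sum_congr rfl fun σ _ => ?_
  rw [Finset.prod_mul_distrib]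
  simp

/-- the symmetrised product is invariant under permutations -/
theorem symProd_perm {Q : Type} [Fintype Q] [DecidableEq Q] (τ : Equiv.Perm Q) (u : Q → (ι → Fin n) → ℂ) :
    symProd (fun q => u (τ q)) = symProd u := by
  ext I
  simp only [symProd_apply]
  symm
  rw [← Equiv.sum_comp (Equiv.mulLeft τ)]
  rfl

/-- value of a covariant tensor on vectors -/
theorem exists_prod_eval_ne {Q : Type} [Fintype Q] [DecidableEq Q] (u : Q → (ι → Fin n) → ℂ) (hu : ∀ q, u q ≠ 0) :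
    ∃ v : ι → Fin n → ℂ, ∀ q, ∑ K : ι → Fin n, (∏ a, v a (K a)) * u q K ≠ 0 := by
  let P : Q → MvPolynomial (ι × Fin n) ℂ := fun q =>
    ∑ K : ι → Fin n, MvPolynomial.C (u q K) * ∏ a, MvPolynomial.X (a, K a)
  have hP : ∀ q, P q ≠ 0 := by
    intro q h0
    obtain ⟨K₀, hK₀⟩ := Function.ne_iff.1 (hu q)
    apply hK₀
    have h1 := congrArg (MvPolynomial.eval fun x : ι × Fin n => if x.2 = K₀ x.1 then (1 : ℂ) else 0) h0
    simp only [P, map_sum, map_mul, MvPolynomial.eval_C, map_prod, MvPolynomial.eval_X,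
      map_zero] at h1
    rw [Finset.sum_eq_single K₀] at h1
    · simpa using h1
    · intro K _ hK
      obtain ⟨a, ha⟩ := Function.ne_iff.1 hK
      rw [Finset.prod_eq_zero (Finset.mem_univ a) (if_neg ha), mul_zero]
    · simp
  have hprod : ∏ q, P q ≠ 0 := Finset.prod_ne_zero_iff.2 fun q _ => hP q
  obtain ⟨x, hx⟩ : ∃ x : ι × Fin n → ℂ, MvPolynomial.eval x (∏ q, P q) ≠ 0 := by
    by_contra hcon
    push Not at hcon
    exact hprod (MvPolynomial.funext fun x => by rw [hcon x, map_zero])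
  refine ⟨fun a i => x (a, i), fun q => ?_⟩
  rw [map_prod] at hx
  have h2 := Finset.prod_ne_zero_iff.1 hx q (Finset.mem_univ q)
  simp only [P, map_sum, map_mul, MvPolynomial.eval_C, map_prod, MvPolynomial.eval_X] at h2
  intro h3
  apply h2
  rw [← h3]
  exact Finset.sum_congr rfl fun K _ => by ring

theorem symProd_ne_zero {Q : Type} [Fintype Q] [DecidableEq Q] (u : Q → (ι → Fin n) → ℂ) (hu : ∀ q, u q ≠ 0) :
    symProd u ≠ 0 := by
  intro h0
  obtain ⟨v, hv⟩ := exists_prod_eval_ne u hu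
  have h1 : ∑ I : Q × ι → Fin n, (∏ x, v x.2 (I x)) * symProd u I =
      (Fintype.card (Equiv.Perm Q) : ℂ) * ∏ q, ∑ K : ι → Fin n, (∏ a, v a (K a)) * u q K := by
    simp only [symProd_apply]
    simp_rw [Finset.mul_sum]
    rw [Finset.sum_comm]
    have h2 : ∀ σ : Equiv.Perm Q, ∑ I : Q × ι → Fin n,
        (∏ x, v x.2 (I x)) * ∏ q, u (σ q) (fun a => I (q, a)) =
        ∏ q, ∑ K : ι → Fin n, (∏ a, v a (K a)) * u q K := by
      intro σ
      rw [← Equiv.prod_comp σ, Finset.prod_univ_sum, Fintype.piFinset_univ,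
        ← Equiv.sum_comp (Equiv.curry Q ι (Fin n)).symm]
      refine Finset.sum_congr rfl fun K _ => ?_
      rw [Finset.prod_mul_distrib, Fintype.prod_prod_type]
      rfl
    rw [Finset.sum_congr rfl fun σ _ => h2 σ]
    simp
  rw [h0] at h1
  simp only [Pi.zero_apply, mul_zero, Finset.sum_const_zero] at h1
  have h3 : (Fintype.card (Equiv.Perm Q) : ℂ) ≠ 0 := by
    exact_mod_cast Fintype.card_ne_zero
  exact (mul_ne_zero h3 (Finset.prod_ne_zero_iff.2 fun q _ => hv q)) h1.symm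

end tensor

section stack

variable {r : ℕ} {d : Fin r → ℕ} {n : ℕ}

/-- the stacked matrix -/
def stack (B : ∀ i, Matrix (Fin (d i)) (Fin n) ℂ) : Matrix (Σ i, Fin (d i)) (Fin n) ℂ :=
  Matrix.of fun q b => B q.1 q.2 b

theorem stack_mul (A : ∀ i, Matrix (Fin (d i)) (Fin (d i)) ℂ)
    (B : ∀ i, Matrix (Fin (d i)) (Fin n) ℂ) :
    stack (fun i => A i * B i) = Matrix.blockDiagonal' A * stack B := by
  ext ⟨i, a⟩ b
  rw [Matrix.mul_apply, Fintype.sum_sigma]
  show (A i * B i) a b = _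
  rw [Finset.sum_eq_single i]
  · simp [Matrix.mul_apply, stack]
  · intro j _ hj
    refine Finset.sum_eq_zero fun c _ => ?_
    rw [Matrix.blockDiagonal'_apply_ne A a c (Ne.symm hj), zero_mul]
  · simp

theorem det_blockDiagonal' (A : ∀ i, Matrix (Fin (d i)) (Fin (d i)) ℂ) :
    (Matrix.blockDiagonal' A).det = ∏ i, (A i).det := by
  rw [(Matrix.blockTriangular_blockDiagonal' A).det_fintype]
  refine Finset.prod_congr rfl fun k _ => ?_
  let e : Fin (d k) ≃ {x : Σ i, Fin (d i) // x.1 = k} :=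
    { toFun := fun a => ⟨⟨k, a⟩, rfl⟩
      invFun := fun x => x.2 ▸ x.1.2
      left_inv := fun a => rfl
      right_inv := by rintro ⟨⟨j, a⟩, rfl⟩; rfl }
  rw [← Matrix.det_submatrix_equiv_self e]
  congr 1
  ext a b
  simp [Matrix.toSquareBlock_def, e]

/-- the determinant of the stacked square matrix -/
def sdet (σ : (Σ i, Fin (d i)) ≃ Fin n) (B : ∀ i, Matrix (Fin (d i)) (Fin n) ℂ) : ℂ :=
  ((stack B).submatrix σ.symm id).det

variable (σ : (Σ i, Fin (d i)) ≃ Fin n)

theorem sdet_mul_left (A : ∀ i, Matrix (Fin (d i)) (Fin (d i)) ℂ)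
    (B : ∀ i, Matrix (Fin (d i)) (Fin n) ℂ) :
    sdet σ (fun i => A i * B i) = (∏ i, (A i).det) * sdet σ B := by
  unfold sdet
  rw [stack_mul, ← Matrix.submatrix_mul_equiv (e₂ := σ.symm) , Matrix.det_mul,
    Matrix.det_submatrix_equiv_self, det_blockDiagonal']

theorem sdet_mul_right (B : ∀ i, Matrix (Fin (d i)) (Fin n) ℂ) (C : Matrix (Fin n) (Fin n) ℂ) :
    sdet σ (fun i => B i * C) = sdet σ B * C.det := by
  unfold sdet
  have : stack (fun i => B i * C) = stack B * C := by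
    ext ⟨i, a⟩ b
    simp [stack, Matrix.mul_apply]
  rw [this, ← Matrix.det_mul]
  congr 1

theorem sdet_ne_zero (B : ∀ i, Matrix (Fin (d i)) (Fin n) ℂ)
    (h : ∀ u : Fin n → ℂ, (∀ i, (B i).mulVec u = 0) → u = 0) : sdet σ B ≠ 0 := by
  intro h0
  obtain ⟨u, hu, hu0⟩ := Matrix.exists_mulVec_eq_zero_iff.2 h0
  refine hu (h u fun i => ?_)
  ext a
  have := congrFun hu0 (σ ⟨i, a⟩)
  simpa [Matrix.mulVec, dotProduct, stack] using this

end stack

end Vale.Agent.P299.H996
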