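import Vale.Agent.P299.H996.D6.Descent
import Mathlib.GroupTheory.Index

/-!
# The symmetrised norm of a section over a finite index subgroup of the deck group
-/

open scoped Manifold ContDiff ComplexOrder Topology
open Complex Vale.Agent.P272.K Vale.Agent.P299.D Vale.Agent.P299.H956 Vale.Agent.P278.H837

noncomputable section

namespace Vale.Agent.P299.H996

variable {n p m : ℕ} {M X : Type*} [TopologicalSpace M] [TopologicalSpace X]
  [ChartedSpace (Cm n) M] [ChartedSpace (Cm n) X]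
  [IsManifold 𝓘(ℂ, Cm n) ω M] [IsManifold 𝓘(ℂ, Cm n) ω X] {π : M → X}

/-- the points where `u` does not vanish -/
def nzSet (u : Ten n p M) : Set M :=
  {y | u (chartAt (Cm n) y) (chartAt (Cm n) y y) ≠ 0}

theorem mem_nzSet_iff {u : Ten n p M} (hu : IsTen p m u) {e : Chart n M} {y : M} (h : At e y) :
    y ∈ nzSet u ↔ u e (e y) ≠ 0 := by
  have hc := at_chartAt (n := n) y
  show u (chartAt (Cm n) y) (chartAt (Cm n) y y) ≠ 0 ↔ _
  constructor
  · intro h1
    rw [IsTen.change' hu h hc]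
    exact act_ne_zero (jacM_det_ne_zero h hc) h1
  · intro h1
    rw [IsTen.change' hu hc h]
    exact act_ne_zero (jacM_det_ne_zero hc h) h1

theorem ten_continuousAt {u : Ten n p M} (hu : IsTen p m u) {e : Chart n M} {y : M} (h : At e y) :
    ContinuousAt (fun y => u e (e y)) y := by
  rw [continuousAt_pi]
  intro K
  exact ContinuousAt.comp (g := fun z => u e z K) (hu.holo e y h K).continuousAt
    (e.continuousAt h.2)

theorem isOpen_nzSet {u : Ten n p M} (hu : IsTen p m u) : IsOpen (nzSet u) := by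
  rw [isOpen_iff_mem_nhds]
  intro y hy
  have hc := at_chartAt (n := n) y
  have h1 := (ten_continuousAt hu hc).eventually_ne ((mem_nzSet_iff hu hc).1 hy)
  filter_upwards [h1, (chartAt (Cm n) y).open_source.mem_nhds hc.2] with z hz hz2
  exact (mem_nzSet_iff hu ⟨hc.1, hz2⟩).2 hz

/-- **Identity theorem**: a nonzero section does not vanish on a dense set. -/
theorem dense_nzSet [PreconnectedSpace M] {u : Ten n p M} (hu : IsTen p m u)
    (hne : (nzSet u).Nonempty) : Dense (nzSet u) := by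
  set A : Set M := interior (nzSet u)ᶜ with hA
  have hAo : IsOpen A := isOpen_interior
  have hAc : IsClosed A := by
    rw [← closure_subset_iff_isClosed]
    intro y hy
    have hc := at_chartAt (n := n) y
    set c := chartAt (Cm n) y
    obtain ⟨r, hr, hball⟩ := Metric.isOpen_iff.1 c.open_target (c y) hc.mem_target
    -- the open set of points over the ball
    set W : Set M := c.source ∩ c ⁻¹' Metric.ball (c y) r with hW
    have hWo : IsOpen W := c.isOpen_inter_preimage Metric.isOpen_ball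
    have hyW : y ∈ W := ⟨hc.2, Metric.mem_ball_self hr⟩
    obtain ⟨y', hy'W, hy'A⟩ := mem_closure_iff.1 hy W hWo hyW
    have hzero : ∀ K, Set.EqOn (fun z => u c z K) 0 (Metric.ball (c y) r) := by
      intro K
      have han : AnalyticOnNhd ℂ (fun z => u c z K) (Metric.ball (c y) r) := by
        intro z hz
        have hz' := hball hz
        have := hu.holo c (c.symm z) (At.of_target hc.1 hz') K
        rwa [c.right_inv hz'] at this
      refine han.eqOn_zero_of_preconnected_of_eventuallyEq_zero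
        (convex_ball (c y) r).isPreconnected hy'W.2 ?_
      have hcont : Filter.Tendsto c.symm (𝓝 (c y')) (𝓝 y') := by
        have := c.continuousAt_symm (c.map_source hy'W.1)
        rwa [ContinuousAt, c.left_inv hy'W.1] at this
      filter_upwards [hcont.eventually (hAo.mem_nhds hy'A),
        c.open_target.mem_nhds (c.map_source hy'W.1)] with z hz hz2
      have h1 : c.symm z ∉ nzSet u := interior_subset hz
      rw [mem_nzSet_iff hu (At.of_target hc.1 hz2), not_not, c.right_inv hz2] at h1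
      rw [h1]; rfl
    refine mem_interior.2 ⟨W, ?_, hWo, hyW⟩
    intro z hz
    show z ∉ nzSet u
    rw [mem_nzSet_iff hu ⟨hc.1, hz.1⟩, not_not]
    ext K
    exact hzero K hz.2
  rcases isClopen_iff.1 ⟨hAc, hAo⟩ with h | h
  · rw [hA, interior_compl, Set.compl_empty_iff] at h
    exact dense_iff_closure_eq.2 h
  · obtain ⟨y, hy⟩ := hne
    have : y ∈ A := by rw [h]; trivial
    exact absurd hy (interior_subset this)

theorem tenNZ_iff {u : Ten n p M} (hu : IsTen p m u) : TenNZ u ↔ (nzSet u).Nonempty := by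
  constructor
  · rintro ⟨e, x, I, h, hne⟩
    refine ⟨x, (mem_nzSet_iff hu h).2 fun h0 => hne ?_⟩
    rw [h0]; rfl
  · rintro ⟨y, hy⟩
    have hc := at_chartAt (n := n) y
    obtain ⟨I, hI⟩ := Function.ne_iff.1 ((mem_nzSet_iff hu hc).1 hy)
    exact ⟨_, y, I, hc, hI⟩

theorem exists_common_nz [PreconnectedSpace M] {Q : Type*} [Finite Q] (u : Q → Ten n p M)
    (hu : ∀ q, IsTen p m (u q)) (hne : ∀ q, (nzSet (u q)).Nonempty) [Nonempty M] :
    ∃ y, ∀ q, y ∈ nzSet (u q) := by
  classical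
  have := Fintype.ofFinite Q
  have key : ∀ s : Finset Q, IsOpen (⋂ q ∈ s, nzSet (u q)) ∧ Dense (⋂ q ∈ s, nzSet (u q)) := by
    intro s
    induction s using Finset.induction_on with
    | empty => simp [dense_univ]
    | insert q s _ ih =>
      rw [Finset.set_biInter_insert]
      exact ⟨(isOpen_nzSet (hu q)).inter ih.1,
        (dense_nzSet (hu q) (hne q)).inter_of_isOpen_left ih.2 (isOpen_nzSet (hu q))⟩
  obtain ⟨y, hy⟩ := (key Finset.univ).2.nonempty
  exact ⟨y, fun q => by simpa using Set.mem_iInter₂.1 hy q (Finset.mem_univ q)⟩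

/-- invariance under a deck transformation, in terms of `act` -/
def InvDeck (m : ℕ) (u : Ten n p M) (γ : Deck π) : Prop :=
  ∀ (e e' : Chart n M) (y : M), At e y → At e' ((γ : M ≃ₜ M) y) →
    u e (e y) = act m (jacF (γ : M ≃ₜ M) e e' y) (u e' (e' ((γ : M ≃ₜ M) y)))

/-- pull back by a deck transformation -/
def dk (m : ℕ) (γ : Deck π) (u : Ten n p M) : Ten n p M := tenPB m ((γ : M ≃ₜ M) : M → M) u

theorem dk_mul (loc : IsLocalDiffeomorph 𝓘(ℂ, Cm n) 𝓘(ℂ, Cm n) ω π) (γ δ : Deck π)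
    {u : Ten n p M} (hu : IsTen p m u) {e e' : Chart n M} {y : M} (h : At e y)
    (h' : At e' ((δ : M ≃ₜ M) y)) :
    act m (jacF (δ : M ≃ₜ M) e e' y) (dk m γ u e' (e' ((δ : M ≃ₜ M) y))) =
      dk m (γ * δ) u e (e y) := by
  have hc := at_chartAt (n := n) ((γ : M ≃ₜ M) ((δ : M ≃ₜ M) y))
  unfold dk
  have h1 := tenPB_eq (deck_hol loc γ) hu h' hc
  have h2 := tenPB_eq (deck_hol loc (γ * δ)) hu h hc
  rw [h1, h2, ← act_mul]
  have h3 := jacF_comp (f := ((δ : M ≃ₜ M) : M → M)) (g := ((γ : M ≃ₜ M) : M → M))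
    (deck_hol loc δ).contMDiffAt (deck_hol loc γ).contMDiffAt h h' hc
  rw [← h3]
  rfl

theorem dk_inv (loc : IsLocalDiffeomorph 𝓘(ℂ, Cm n) 𝓘(ℂ, Cm n) ω π) {γ : Deck π}
    {u : Ten n p M} (hu : IsTen p m u) (hγ : InvDeck m u γ) (δ : Deck π) {e : Chart n M} {y : M}
    (h : At e y) : dk m (γ * δ) u e (e y) = dk m δ u e (e y) := by
  have hc := at_chartAt (n := n) ((δ : M ≃ₜ M) y)
  rw [← dk_mul loc γ δ hu h hc]
  unfold dk
  rw [tenPB_eq (deck_hol loc δ) hu h hc]
  congr 1
  have hc' := at_chartAt (n := n) ((γ : M ≃ₜ M) ((δ : M ≃ₜ M) y))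
  rw [tenPB_eq (deck_hol loc γ) hu hc hc']
  exact (hγ _ _ _ hc hc').symm

theorem isTen_dk (loc : IsLocalDiffeomorph 𝓘(ℂ, Cm n) 𝓘(ℂ, Cm n) ω π) (γ : Deck π)
    {u : Ten n p M} (hu : IsTen p m u) : IsTen p m (dk m γ u) :=
  isTen_tenPB (deck_hol loc γ) (deck_imm loc γ) hu

theorem nzSet_dk (loc : IsLocalDiffeomorph 𝓘(ℂ, Cm n) 𝓘(ℂ, Cm n) ω π) (γ : Deck π)
    {u : Ten n p M} (hu : IsTen p m u) (hne : (nzSet u).Nonempty) :
    (nzSet (dk m γ u)).Nonempty := by
  obtain ⟨y, hy⟩ := hne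
  refine ⟨((γ⁻¹ : Deck π) : M ≃ₜ M) y, ?_⟩
  have hγ : (γ : M ≃ₜ M) (((γ⁻¹ : Deck π) : M ≃ₜ M) y) = y := by
    show (((γ * γ⁻¹ : Deck π) : M ≃ₜ M) : M → M) y = y
    rw [mul_inv_cancel]; rfl
  have hc := at_chartAt (n := n) (((γ⁻¹ : Deck π) : M ≃ₜ M) y)
  have hc' := at_chartAt (n := n) y
  rw [mem_nzSet_iff (isTen_dk loc γ hu) hc]
  unfold dk
  have hc2 : At (chartAt (Cm n) y) ((γ : M ≃ₜ M) (((γ⁻¹ : Deck π) : M ≃ₜ M) y)) := by
    rw [hγ]; exact hc'
  rw [tenPB_eq (deck_hol loc γ) hu hc hc2]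
  refine act_ne_zero (det_inj (deck_imm loc γ _ _ _ hc hc2)) ?_
  rw [hγ]
  exact (mem_nzSet_iff hu hc').1 hy

/-- **The symmetrised norm.** -/
theorem exists_norm {M : Type} [TopologicalSpace M] [ChartedSpace (Cm n) M]
    [IsManifold 𝓘(ℂ, Cm n) ω M] [ConnectedSpace M] {π : M → X}
    (loc : IsLocalDiffeomorph 𝓘(ℂ, Cm n) 𝓘(ℂ, Cm n) ω π)
    (G : Subgroup (Deck π)) (hG : G.FiniteIndex) :
    ∃ N : ℕ, 1 ≤ N ∧ ∀ (p m : ℕ) (u : Ten n p M), IsTen p m u → TenNZ u →
      (∀ γ ∈ G, InvDeck m u γ) →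
      ∃ U : Ten n (N * p) M, IsTen (N * p) (m * N) U ∧ TenNZ U ∧
        ∀ γ : Deck π, InvDeck (m * N) U γ := by
  classical
  let H : Subgroup (Deck π) := G.normalCore
  have hHn : H.Normal := G.normalCore_normal
  have hHf : H.FiniteIndex := Subgroup.finiteIndex_normalCore G
  have hHG : H ≤ G := G.normalCore_le
  let Q := Deck π ⧸ H
  have hfin : Finite Q := inferInstance
  let _ : Fintype Q := Fintype.ofFinite _
  let r : Q → Deck π := Quotient.out
  have hr : ∀ q : Q, (QuotientGroup.mk (r q) : Q) = q := fun q => Quotient.out_eq q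
  refine ⟨Fintype.card Q, Fintype.card_pos, ?_⟩
  intro p m u hu hnz hinv
  let eqv : Fin (Fintype.card Q * p) ≃ Q × Fin p :=
    finProdFinEquiv.symm.trans ((Fintype.equivFin Q).symm.prodCongr (Equiv.refl _))
  let U : Ten n (Fintype.card Q * p) M := fun e z =>
    reSlot eqv (symProd (fun q : Q => dk m (r q) u e z))
  have hU : IsTen (Fintype.card Q * p) (m * Fintype.card Q) U := by
    rw [isTen_iff]
    constructor
    · intro e x h I
      show AnalyticAt ℂ (fun z => ∑ σ : Equiv.Perm Q, ∏ q,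
        dk m (r (σ q)) u e z (fun a => (I ∘ eqv.symm) (q, a))) (e x)
      refine Finset.analyticAt_fun_sum _ fun σ _ => Finset.analyticAt_fun_prod _ fun q _ => ?_
      exact (isTen_dk loc (r (σ q)) hu).holo e x h _
    · intro e e' x h h'
      show reSlot eqv _ = act _ _ (reSlot eqv _)
      rw [act_reSlot, act_symProd]
      congr 2
      ext1 q
      exact IsTen.change' (isTen_dk loc (r q) hu) h h'
  refine ⟨U, hU, ?_, ?_⟩
  · rw [tenNZ_iff hU]
    obtain ⟨y, hy⟩ := exists_common_nz (fun q : Q => dk m (r q) u) (fun q => isTen_dk loc (r q) hu)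
      (fun q => nzSet_dk loc (r q) hu ((tenNZ_iff hu).1 hnz))
    refine ⟨y, ?_⟩
    have hc := at_chartAt (n := n) y
    rw [mem_nzSet_iff hU hc]
    intro h0
    refine symProd_ne_zero (fun q : Q => dk m (r q) u (chartAt (Cm n) y) (chartAt (Cm n) y y))
      (fun q => (mem_nzSet_iff (isTen_dk loc (r q) hu) hc).1 (hy q)) ?_
    ext I
    have h1 := congrFun h0 (I ∘ eqv)
    have h2 : (I ∘ eqv) ∘ eqv.symm = I := by ext1 a; simp
    show symProd _ I = 0
    rw [← h2]
    exact h1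
  · intro γ e e' y h h'
    show reSlot eqv _ = act _ _ (reSlot eqv _)
    rw [act_reSlot, act_symProd]
    have key : ∀ q : Q, act m (jacF (γ : M ≃ₜ M) e e' y)
        (dk m (r q) u e' (e' ((γ : M ≃ₜ M) y))) =
        dk m (r (Equiv.mulRight (QuotientGroup.mk γ : Q) q)) u e (e y) := by
      intro q
      rw [dk_mul loc (r q) γ hu h h']
      set δ : Deck π := r (Equiv.mulRight (QuotientGroup.mk γ : Q) q) with hδ
      have hmk : (QuotientGroup.mk (r q * γ) : Q) = QuotientGroup.mk δ := by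
        rw [QuotientGroup.mk_mul, hr, hδ, hr]
        rfl
      have hmem : r q * γ * δ⁻¹ ∈ H := by
        have := QuotientGroup.eq.1 hmk
        have h3 := hHn.conj_mem _ (H.inv_mem this) δ
        have h4 : δ * ((r q * γ)⁻¹ * δ)⁻¹ * δ⁻¹ = r q * γ * δ⁻¹ := by group
        rwa [h4] at h3
      have h5 : r q * γ = (r q * γ * δ⁻¹) * δ := by group
      rw [h5]
      exact dk_inv loc hu (hinv _ (hHG hmem)) δ h
    simp only [key]
    rw [symProd_perm (Equiv.mulRight (QuotientGroup.mk γ : Q))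
      (fun q : Q => dk m (r q) u e (e y))]

end Vale.Agent.P299.H996
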