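import Vale.Agent.P299.H996.D6.Norm

/-!
# The product section on `M = Y 0 × Y 1 × Y 2`
-/

open scoped Manifold ContDiff ComplexOrder Topology
open Complex Vale.Agent.P272.K Vale.Agent.P299.D Vale.Agent.P299.H956 Vale.Agent.P278.H837

noncomputable section

namespace Vale.Agent.P299.H996

section alg

variable {r : ℕ} {d : Fin r → ℕ} {n p : ℕ}

/-- value of the product section: `a` is the product of the scalar factors, `t` the tensor factor
on the factor `j` -/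
def pval (σ : (Σ i, Fin (d i)) ≃ Fin n) (m : ℕ) (j : Fin r) (A : ∀ i, Matrix (Fin (d i)) (Fin n) ℂ)
    (a : ℂ) (t : (Fin p → Fin (d j)) → ℂ) : (Fin p → Fin n) → ℂ :=
  ((sdet σ A ^ m)⁻¹ * a) • tP (A j) t

variable (σ : (Σ i, Fin (d i)) ≃ Fin n) (m : ℕ) (j : Fin r)

theorem act_pval (A : ∀ i, Matrix (Fin (d i)) (Fin n) ℂ) (C : Matrix (Fin n) (Fin n) ℂ)
    (a : ℂ) (t : (Fin p → Fin (d j)) → ℂ) :
    act m C (pval σ m j A a t) = pval σ m j (fun i => A i * C) a t := by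
  unfold act pval
  rw [sdet_mul_right, tP_smul, ← tP_mul, smul_smul, mul_pow, mul_inv]
  congr 1
  ring

theorem pval_left (A : ∀ i, Matrix (Fin (d i)) (Fin n) ℂ)
    (D : ∀ i, Matrix (Fin (d i)) (Fin (d i)) ℂ) (hD : ∀ i, (D i).det ≠ 0)
    {a a' : ℂ} {t t' : (Fin p → Fin (d j)) → ℂ} {b : ℂ}
    (hb : b * (D j).det ^ m = ∏ i, (D i).det ^ m) (ha : b * a = a')
    (ht : t = act m (D j) t') :
    pval σ m j (fun i => D i * A i) a' t' = pval σ m j A a t := by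
  subst ht ha
  unfold pval act
  rw [sdet_mul_left, tP_mul, tP_smul, smul_smul, mul_pow]
  congr 1
  have h1 : (∏ i, (D i).det) ^ m = b * (D j).det ^ m := by
    rw [hb, Finset.prod_pow]
  have h2 : (D j).det ^ m ≠ 0 := pow_ne_zero m (hD j)
  have h3 : b ≠ 0 := by
    intro h0
    rw [h0, zero_mul] at h1
    exact pow_ne_zero m (Finset.prod_ne_zero_iff.2 fun i _ => hD i) h1
  rw [h1]
  simp only [mul_inv]
  field_simp

theorem holo_sdet {k : ℕ} {A : Cm k → ∀ i, Matrix (Fin (d i)) (Fin n) ℂ} {z : Cm k}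
    (hA : ∀ i p q, ContDiffAt ℂ ω (fun y => A y i p q) z) :
    ContDiffAt ℂ ω (fun y => sdet σ (A y)) z := by
  unfold sdet
  refine holo_det fun p q => ?_
  exact hA (σ.symm p).1 (σ.symm p).2 q

theorem holo_pval {k : ℕ} {A : Cm k → ∀ i, Matrix (Fin (d i)) (Fin n) ℂ} {z : Cm k}
    {a : Cm k → ℂ} {t : Cm k → (Fin p → Fin (d j)) → ℂ}
    (hA : ∀ i p q, ContDiffAt ℂ ω (fun y => A y i p q) z) (h0 : sdet σ (A z) ≠ 0)
    (ha : ContDiffAt ℂ ω a z) (ht : ∀ K, ContDiffAt ℂ ω (fun y => t y K) z)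
    (I : Fin p → Fin n) : ContDiffAt ℂ ω (fun y => pval σ m j (A y) (a y) (t y) I) z := by
  have h1 : ContDiffAt ℂ ω (fun y => (sdet σ (A y) ^ m)⁻¹ * a y) z :=
    (((holo_sdet σ hA).pow m).inv (pow_ne_zero m h0)).mul ha
  exact h1.mul (holo_tP (hA j) ht I)

end alg

section scalar

variable {n : ℕ}

/-- the empty multi-index -/
def e0 (n : ℕ) : Fin 0 → Fin n := fun a => a.elim0

theorem tP_zero_slots {n d : ℕ} (J : Matrix (Fin n) (Fin d) ℂ) (t : (Fin 0 → Fin n) → ℂ)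
    (I : Fin 0 → Fin d) : tP J t I = t (e0 n) := by
  rw [tP_apply, Fintype.sum_unique]
  simp only [Finset.univ_eq_empty, Finset.prod_empty, one_mul]
  congr 1

theorem act_zero_slots {n : ℕ} (J : Matrix (Fin n) (Fin n) ℂ) (hJ : J.det ≠ 0)
    (t : (Fin 0 → Fin n) → ℂ) (m : ℕ) :
    J.det ^ m * act m J t (e0 n) = t (e0 n) := by
  unfold act
  rw [Pi.smul_apply, smul_eq_mul, tP_zero_slots, mul_inv_cancel_left₀ (pow_ne_zero m hJ)]

end scalar

section split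

variable {n : ℕ} {X : Type} [TopologicalSpace X] [ChartedSpace (Cm n) X] {w : FormM n X}
  (S : Split n X w) {p m : ℕ}

/-- the bijection of the coordinates -/
def sig : (Σ i, Fin (S.d i)) ≃ Fin n := finSigmaFinEquiv.trans (finCongr S.dsum)

variable (m) in
/-- the product section on `M`, computed with given charts of the factors -/
def uval (s0 : Ten (S.d 0) 0 (S.Y 0)) (s1 : Ten (S.d 1) 0 (S.Y 1)) (s2 : Ten (S.d 2) p (S.Y 2))
    (e : Chart n S.M) (e' : (i : Fin 3) → Chart (S.d i) (S.Y i)) (y : S.M) : (Fin p → Fin n) → ℂ :=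
  pval (sig S) m 2 (fun i => jacF (fun m => S.Φ m i) e (e' i) y)
    ((s0 (e' 0) (e' 0 (S.Φ y 0)) (e0 _) * s1 (e' 1) (e' 1 (S.Φ y 1)) (e0 _)) ^ m)
    (s2 (e' 2) (e' 2 (S.Φ y 2)))

variable (m) in
/-- the product section on `M` -/
def uM (s0 : Ten (S.d 0) 0 (S.Y 0)) (s1 : Ten (S.d 1) 0 (S.Y 1)) (s2 : Ten (S.d 2) p (S.Y 2)) :
    Ten n p S.M := fun e z =>
  uval S m s0 s1 s2 e (fun i => chartAt (Cm (S.d i)) (S.Φ (e.symm z) i)) (e.symm z)

variable {s0 : Ten (S.d 0) 0 (S.Y 0)} {s1 : Ten (S.d 1) 0 (S.Y 1)} {s2 : Ten (S.d 2) p (S.Y 2)}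

/-- transformation of the product under maps of the factors -/
theorem uval_left (D : (i : Fin 3) → Matrix (Fin (S.d i)) (Fin (S.d i)) ℂ) (hD : ∀ i, (D i).det ≠ 0)
    (A : ∀ i, Matrix (Fin (S.d i)) (Fin n) ℂ)
    {t0 t0' : (Fin 0 → Fin (S.d 0)) → ℂ} {t1 t1' : (Fin 0 → Fin (S.d 1)) → ℂ}
    {t2 t2' : (Fin p → Fin (S.d 2)) → ℂ}
    (h0 : t0 = act 1 (D 0) t0') (h1 : t1 = act 1 (D 1) t1') (h2 : t2 = act m (D 2) t2') :
    pval (sig S) m 2 (fun i => D i * A i) ((t0' (e0 _) * t1' (e0 _)) ^ m) t2' =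
      pval (sig S) m 2 A ((t0 (e0 _) * t1 (e0 _)) ^ m) t2 := by
  refine pval_left (sig S) m 2 A D hD (b := (D 0).det ^ m * (D 1).det ^ m) ?_ ?_ h2
  · rw [Fin.prod_univ_three]
  · have h3 := act_zero_slots (D 0) (hD 0) t0' 1
    have h4 := act_zero_slots (D 1) (hD 1) t1' 1
    rw [← h0, pow_one] at h3
    rw [← h1, pow_one] at h4
    rw [← h3, ← h4, ← mul_pow, ← mul_pow]
    congr 1
    ring

theorem uM_eq (hs0 : IsTen 0 1 s0) (hs1 : IsTen 0 1 s1) (hs2 : IsTen p m s2) {e : Chart n S.M}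
    {e' : (i : Fin 3) → Chart (S.d i) (S.Y i)} {y : S.M} (h : At e y)
    (h' : ∀ i, At (e' i) (S.Φ y i)) : uM S m s0 s1 s2 e (e y) = uval S m s0 s1 s2 e e' y := by
  unfold uM
  rw [h.left_inv]
  have hc : ∀ i, At (chartAt (Cm (S.d i)) (S.Φ y i)) (S.Φ y i) := fun i => at_chartAt _
  unfold uval
  have hA : (fun i => jacF (fun m => S.Φ m i) e (e' i) y) = fun i =>
      jacM (chartAt (Cm (S.d i)) (S.Φ y i)) (e' i) (S.Φ y i) *
        jacF (fun m => S.Φ m i) e (chartAt (Cm (S.d i)) (S.Φ y i)) y := by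
    funext i
    exact jacF_right (f := fun m => S.Φ m i) (S.Φ_hol i).contMDiffAt h (hc i) (h' i)
  rw [hA]
  symm
  exact uval_left S _ (fun i => jacM_det_ne_zero (hc i) (h' i)) _
    (IsTen.change' hs0 (hc 0) (h' 0)) (IsTen.change' hs1 (hc 1) (h' 1))
    (IsTen.change' hs2 (hc 2) (h' 2))

theorem stack_inj {e : Chart n S.M} {e' : (i : Fin 3) → Chart (S.d i) (S.Y i)} {y : S.M}
    (h : At e y) (h' : ∀ i, At (e' i) (S.Φ y i)) :
    sdet (sig S) (fun i => jacF (fun m => S.Φ m i) e (e' i) y) ≠ 0 :=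
  sdet_ne_zero _ _ (S.jac_inj e y e' h h')

theorem isTen_uM (hs0 : IsTen 0 1 s0) (hs1 : IsTen 0 1 s1) (hs2 : IsTen p m s2) :
    IsTen p m (uM S m s0 s1 s2) := by
  rw [isTen_iff]
  constructor
  · intro e y h I
    apply ContDiffAt.analyticAt
    have hc : ∀ i, At (chartAt (Cm (S.d i)) (S.Φ y i)) (S.Φ y i) := fun i => at_chartAt _
    set c : (i : Fin 3) → Chart (S.d i) (S.Y i) := fun i => chartAt (Cm (S.d i)) (S.Φ y i)
    have hf : ∀ i, ContMDiffAt 𝓘(ℂ, Cm n) 𝓘(ℂ, Cm (S.d i)) ω (fun m => S.Φ m i) y :=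
      fun i => (S.Φ_hol i).contMDiffAt
    have hτ := fun i => rep_hol (hf i) h (hc i)
    have hy : ∀ i, c i (S.Φ (e.symm (e y)) i) = c i (S.Φ y i) := fun i => by rw [h.left_inv]
    have hscal : ∀ {q : ℕ} {m' : ℕ} (i : Fin 3) (s : Ten (S.d i) q (S.Y i)), IsTen q m' s →
        ∀ K, ContDiffAt ℂ ω (fun z => s (c i) (c i (S.Φ (e.symm z) i)) K) (e y) := by
      intro q m' i s hs K
      refine ContDiffAt.comp (e y) (g := fun z => s (c i) z K)
        (f := fun z => c i (S.Φ (e.symm z) i)) ?_ (hτ i)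
      rw [hy i]
      exact (hs.holo (c i) (S.Φ y i) (hc i) K).contDiffAt
    have h1 : ContDiffAt ℂ ω (fun z => pval (sig S) m 2
        (fun i => jmR (fun z => c i (S.Φ (e.symm z) i)) z)
        ((s0 (c 0) (c 0 (S.Φ (e.symm z) 0)) (e0 _) * s1 (c 1) (c 1 (S.Φ (e.symm z) 1)) (e0 _)) ^ m)
        (s2 (c 2) (c 2 (S.Φ (e.symm z) 2))) I) (e y) := by
      refine holo_pval (sig S) m 2 (fun i p q => jmR_holo (hτ i) p q) ?_ ?_ ?_ I
      · exact stack_inj S h hc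
      · exact ((hscal 0 s0 hs0 _).mul (hscal 1 s1 hs1 _)).pow m
      · exact fun K => hscal 2 s2 hs2 K
    refine h1.congr_of_eventuallyEq ?_
    have hev : ∀ᶠ z in 𝓝 (e y), ∀ i, z ∈ e.target ∧ At e (e.symm z) ∧
        At (c i) (S.Φ (e.symm z) i) :=
      Filter.eventually_all.2 fun i => nhds_at_map (hf i).continuousAt h (hc i)
    filter_upwards [hev] with z hz
    have h2 := uM_eq S hs0 hs1 hs2 (hz 0).2.1 (fun i => (hz i).2.2)
    rw [e.right_inv (hz 0).1] at h2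
    rw [h2]
    unfold uval
    have hA : (fun i => jacF (fun m => S.Φ m i) e (c i) (e.symm z)) = fun i =>
        jmR (fun z => c i (S.Φ (e.symm z) i)) z := by
      funext i
      exact jacF_target h.1 (hz 0).1
    rw [hA]
  · intro e₁ e₂ y h₁ h₂
    have hc : ∀ i, At (chartAt (Cm (S.d i)) (S.Φ y i)) (S.Φ y i) := fun i => at_chartAt _
    rw [uM_eq S hs0 hs1 hs2 h₁ hc, uM_eq S hs0 hs1 hs2 h₂ hc]
    unfold uval
    rw [act_pval]
    congr 1
    funext i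
    exact jacF_left (f := fun m => S.Φ m i) (S.Φ_hol i).contMDiffAt h₁ h₂ (hc i)

theorem rho_imm (i : Fin 3) (γ : Deck S.π) : Immersive (S.d i) (S.d i) (S.ρ i γ) := by
  refine immersive_of_leftInverse (g := S.ρ i γ⁻¹) (S.ρ_hol i γ) (S.ρ_hol i γ⁻¹) fun y => ?_
  rw [← Equiv.Perm.mul_apply, ← map_mul, inv_mul_cancel, map_one]
  rfl

theorem rho_det (i : Fin 3) (γ : Deck S.π) (e e' : Chart (S.d i) (S.Y i)) (y : S.Y i)
    (h : At e y) (h' : At e' (S.ρ i γ y)) : (jacF (S.ρ i γ) e e' y).det ≠ 0 :=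
  det_inj (rho_imm S i γ e e' y h h')

theorem invDeck_uM [IsManifold 𝓘(ℂ, Cm n) ω X] (hs0 : IsTen 0 1 s0) (hs1 : IsTen 0 1 s1) (hs2 : IsTen p m s2)
    (γ : Deck S.π) (h0 : TenInv 1 (S.ρ 0 γ) s0) (h1 : TenInv 1 (S.ρ 1 γ) s1)
    (h2 : TenInv m (S.ρ 2 γ) s2) : InvDeck m (uM S m s0 s1 s2) γ := by
  rw [tenInv_iff (rho_det S _ γ)] at h0 h1 h2
  intro e e' y h h'
  have hc : ∀ i, At (chartAt (Cm (S.d i)) (S.Φ y i)) (S.Φ y i) := fun i => at_chartAt _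
  have hγ : ∀ i, S.Φ ((γ : S.M ≃ₜ S.M) y) i = S.ρ i γ (S.Φ y i) := S.equiv γ y
  have hc' : ∀ i, At (chartAt (Cm (S.d i)) (S.Φ ((γ : S.M ≃ₜ S.M) y) i))
    (S.Φ ((γ : S.M ≃ₜ S.M) y) i) := fun i => at_chartAt _
  set c : (i : Fin 3) → Chart (S.d i) (S.Y i) := fun i => chartAt (Cm (S.d i)) (S.Φ y i)
  set c' : (i : Fin 3) → Chart (S.d i) (S.Y i) :=
    fun i => chartAt (Cm (S.d i)) (S.Φ ((γ : S.M ≃ₜ S.M) y) i)
  have hc'' : ∀ i, At (c' i) (S.ρ i γ (S.Φ y i)) := fun i => by rw [← hγ]; exact hc' i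
  rw [uM_eq S hs0 hs1 hs2 h hc, uM_eq S hs0 hs1 hs2 h' hc']
  unfold uval
  rw [act_pval]
  have hA : (fun i => jacF (fun m => S.Φ m i) e' (c' i) ((γ : S.M ≃ₜ S.M) y) *
      jacF (γ : S.M ≃ₜ S.M) e e' y) = fun i =>
      jacF (S.ρ i γ) (c i) (c' i) (S.Φ y i) * jacF (fun m => S.Φ m i) e (c i) y := by
    funext i
    have hg : ContMDiffAt 𝓘(ℂ, Cm n) 𝓘(ℂ, Cm n) ω ((γ : S.M ≃ₜ S.M) : S.M → S.M) y :=
      (deck_hol S.loc γ).contMDiffAt
    rw [← jacF_comp (f := ((γ : S.M ≃ₜ S.M) : S.M → S.M)) (g := fun m => S.Φ m i) hg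
      (S.Φ_hol i).contMDiffAt h h' (hc' i)]
    rw [← jacF_comp (f := fun m => S.Φ m i) (g := S.ρ i γ) (S.Φ_hol i).contMDiffAt
      (S.ρ_hol i γ).contMDiffAt h (hc i) (hc'' i)]
    congr 1
    funext m
    exact S.equiv γ m i
  rw [hA]
  symm
  refine uval_left S _ (fun i => rho_det S i γ _ _ _ (hc i) (hc'' i)) _ ?_ ?_ ?_
  · rw [hγ 0]; exact h0 _ _ _ (hc 0) (hc'' 0)
  · rw [hγ 1]; exact h1 _ _ _ (hc 1) (hc'' 1)
  · rw [hγ 2]; exact h2 _ _ _ (hc 2) (hc'' 2)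

theorem tenNZ_uM (hs0 : IsTen 0 1 s0) (hs1 : IsTen 0 1 s1) (hs2 : IsTen p m s2)
    (h0 : ∀ e y, At e y → s0 e (e y) (e0 _) ≠ 0) (h1 : ∀ e y, At e y → s1 e (e y) (e0 _) ≠ 0)
    (h2 : TenNZ s2) : TenNZ (uM S m s0 s1 s2) := by
  obtain ⟨e2, y2, I, h2a, h2b⟩ := h2
  have hne0 : Nonempty (S.Y 0) := inferInstance
  have hne : ∀ i, Nonempty (S.Y i) := fun i => inferInstance
  let yy : (i : Fin 3) → S.Y i := Function.update (fun i => Classical.choice (hne i)) 2 y2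
  have hyy : yy 2 = y2 := Function.update_self _ _ _
  let y : S.M := S.Φ.symm yy
  have hΦ : S.Φ y = yy := S.Φ.apply_symm_apply yy
  have hc : At (chartAt (Cm n) y) y := at_chartAt _
  let c : (i : Fin 3) → Chart (S.d i) (S.Y i) := Function.update
    (fun i => chartAt (Cm (S.d i)) (yy i)) 2 e2
  have hcc : ∀ i, At (c i) (S.Φ y i) := by
    intro i
    rw [hΦ]
    by_cases hi : i = 2
    · subst hi
      rw [hyy]
      simp only [c, Function.update_self]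
      exact h2a
    · simp only [c, Function.update_of_ne hi]
      exact at_chartAt _
  have hu := isTen_uM S hs0 hs1 hs2
  rw [tenNZ_iff hu]
  refine ⟨y, (mem_nzSet_iff hu hc).2 ?_⟩
  rw [uM_eq S hs0 hs1 hs2 hc hcc]
  intro hz
  unfold uval pval at hz
  have hs : ((sdet (sig S) (fun i => jacF (fun m => S.Φ m i) (chartAt (Cm n) y) (c i) y) ^ m)⁻¹ *
      (s0 (c 0) (c 0 (S.Φ y 0)) (e0 _) * s1 (c 1) (c 1 (S.Φ y 1)) (e0 _)) ^ m) ≠ 0 :=
    mul_ne_zero (inv_ne_zero (pow_ne_zero m (stack_inj S hc hcc)))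
      (pow_ne_zero m (mul_ne_zero (h0 _ _ (hcc 0)) (h1 _ _ (hcc 1))))
  have ht := (smul_eq_zero.1 hz).resolve_left hs
  -- a right inverse of the Jacobian of `Φ · 2`
  have hsl : ContMDiffAt 𝓘(ℂ, Cm (S.d 2)) 𝓘(ℂ, Cm n) ω
      (fun z : S.Y 2 => S.Φ.symm (Function.update yy 2 z)) y2 := (S.slice_hol 2 yy).contMDiffAt
  have hsy : S.Φ.symm (Function.update yy 2 y2) = y := by
    rw [← hyy, Function.update_eq_self]
  have hc2 : c 2 = e2 := Function.update_self _ _ _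
  have hcomp := jacF_comp (f := fun z : S.Y 2 => S.Φ.symm (Function.update yy 2 z))
    (g := fun m => S.Φ m 2) (e := e2) (e' := chartAt (Cm n) y) (e'' := e2) (y := y2) hsl
    (S.Φ_hol 2).contMDiffAt h2a (by rw [hsy]; exact hc)
    (by rw [hsy, ← hc2]; exact hcc 2)
  have hid : jacF (fun z : S.Y 2 => S.Φ (S.Φ.symm (Function.update yy 2 z)) 2) e2 e2 y2 = 1 := by
    have : (fun z : S.Y 2 => S.Φ (S.Φ.symm (Function.update yy 2 z)) 2) = fun z => z := by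
      funext z
      rw [S.Φ.apply_symm_apply, Function.update_self]
    rw [this, jacF_id, jacM_self h2a]
  rw [hid, hsy] at hcomp
  apply h2b
  have h5 : s2 e2 (e2 y2) = 0 := by
    rw [← tP_one (s2 e2 (e2 y2)), hcomp, tP_mul]
    have h6 : tP (jacF (fun m => S.Φ m 2) (chartAt (Cm n) y) e2 y) (s2 e2 (e2 y2)) = 0 := by
      rw [hc2, hΦ, hyy] at ht
      exact ht
    rw [h6, tP_zero]
  rw [h5]; rfl

end split

end Vale.Agent.P299.H996
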